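import Vale.Agent.P284.H409.CY.Reg
import Vale.Agent.P284.H730.CY.S
import Vale.Agent.P272.K.N.Continuity

/-!
# P284, Cheng-Yau on coverings, row N2 (helper409): the continuity method
-/

open scoped Manifold ContDiff Topology NNReal ComplexOrder ComplexConjugate
open Filter Set Metric MeasureTheory Matrix

set_option maxSynthPendingDepth 3

noncomputable section

namespace Vale.Agent.P284.H409.CY

open Vale.Agent.P272.K Vale.Agent.P272.K.LIN Vale.Agent.P272.K.N Vale.Agent.P284.H248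
  Vale.Agent.P284.H894 Vale.Agent.P284.H894.G Vale.Agent.P284.H894.V Vale.Agent.P284.H409.K
  Vale.Agent.P284.H730.CY

section
variable {n : ℕ} {Γ : Type} [Group Γ] {C : Coc n Γ} {α : ℝ}

theorem cw_herm (K : KM C) {a : C.I} {z : Cm n} (hz : z ∈ C.Ω a) (c : ℝ) :
    ((c : ℂ) • K.w a z).IsHermitian := by
  have h1 := ((K.ku a).pos z hz).isHermitian
  rw [Matrix.IsHermitian, Matrix.conjTranspose_smul, h1.eq]
  simp

theorem isOpen_posS (K : KM C) (α : ℝ) : IsOpen (PosS K α) := by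
  rw [Metric.isOpen_iff]
  rintro u ⟨c, hc, hu⟩
  obtain ⟨B, hB0, hB⟩ := J2_bound C α
  have hl := K.lam_pos
  refine ⟨c * K.lam / (B + 1), by positivity, fun v hv => ⟨c / 2, by positivity, fun p => ?_⟩⟩
  rw [mem_ball, dist_eq_norm, lt_div_iff₀ (by positivity)] at hv
  have h1 : ‖J2 C α (v - u) p‖ ≤ 2 * (c / 2) * K.lam := by
    refine (hB (v - u) p).trans ?_
    nlinarith [norm_nonneg (v - u)]
  have h2 := (w_lev_psd K (C.V_sub p.a p.mem) (J2_symm (v - u) p) h1).2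
  have h3 : lev (J2 C α v p) = lev (J2 C α u p) + lev (J2 C α (v - u) p) := by
    rw [← lev_add]
    congr 1
    rw [map_sub, Hol.sub_apply]
    abel
  have h4 := (hu p).add h2
  have h5 : (c : ℂ) • K.w p.a p.z = ((c / 2 : ℝ) : ℂ) • K.w p.a p.z +
      ((c / 2 : ℝ) : ℂ) • K.w p.a p.z := by
    rw [← add_smul]
    congr 1
    push_cast
    ring
  rw [h5] at h4
  convert h4 using 1
  rw [h3]
  abel

/-- uniformly positive elements, with a fixed constant -/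
def posC (K : KM C) (α c : ℝ) : Set (C2A C α) :=
  {u | ∀ p : Pt C, ((K.w p.a p.z + lev (J2 C α u p)) - (c : ℂ) • K.w p.a p.z).PosSemidef}

theorem isClosed_posC (K : KM C) (α c : ℝ) : IsClosed (posC K α c) := by
  have h : posC K α c = ⋂ p : Pt C, ⋂ x : Fin n → ℂ, {u : C2A C α |
      0 ≤ (star x ⬝ᵥ (K.w p.a p.z - (c : ℂ) • K.w p.a p.z).mulVec x).re +
        (J2 C α u p (star x) (star x) +
          J2 C α u p (Complex.I • (star x : Cm n)) (Complex.I • (star x : Cm n))) / 4} := by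
    ext u
    simp only [posC, Set.mem_ofPred_eq, Set.mem_iInter]
    refine forall_congr' fun p => ?_
    have e : ∀ x : Fin n → ℂ,
        (star x ⬝ᵥ ((K.w p.a p.z + lev (J2 C α u p)) - (c : ℂ) • K.w p.a p.z).mulVec x).re =
        (star x ⬝ᵥ (K.w p.a p.z - (c : ℂ) • K.w p.a p.z).mulVec x).re +
        (J2 C α u p (star x) (star x) +
          J2 C α u p (Complex.I • (star x : Cm n)) (Complex.I • (star x : Cm n))) / 4 := by
      intro x
      have h1 := lev_quadratic (J2_symm u p) x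
      have h2 : (K.w p.a p.z + lev (J2 C α u p)) - (c : ℂ) • K.w p.a p.z =
        (K.w p.a p.z - (c : ℂ) • K.w p.a p.z) + lev (J2 C α u p) := by abel
      rw [h2, Matrix.add_mulVec, dotProduct_add, Complex.add_re, h1, Complex.ofReal_re]
    have hH : ((K.w p.a p.z + lev (J2 C α u p)) - (c : ℂ) • K.w p.a p.z).IsHermitian :=
      ((((K.ku p.a).pos p.z (C.V_sub p.a p.mem)).isHermitian).add
        (lev_isHermitian (J2_symm u p))).sub (cw_herm K (C.V_sub p.a p.mem) c)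
    constructor
    · intro h x
      rw [← e x]
      have := h.dotProduct_mulVec_nonneg x
      exact (Complex.nonneg_iff.1 this).1
    · intro h
      refine psd_of_re hH fun x => ?_
      rw [e x]
      exact h x
  rw [h]
  refine isClosed_iInter fun p => isClosed_iInter fun x => ?_
  have hc : Continuous fun u : C2A C α => J2 C α u p :=
    (Hol.continuous_eval p).comp (J2 C α).continuous
  have h1 : ∀ v : Cm n, Continuous fun u : C2A C α => J2 C α u p v v := fun v =>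
    (hc.clm_apply continuous_const).clm_apply continuous_const
  exact isClosed_le continuous_const
    (continuous_const.add (((h1 _).add (h1 _)).div_const _))

theorem fb_bound {F : Γ → C.I → Cm n → ℝ} (hF : FB C F) :
    ∃ A : ℝ, 0 < A ∧ ∀ γ a, ∀ z ∈ C.Ω a, |F γ a z| ≤ A := by
  have h := fun a => hF.bd a (C.r a) (by linarith [C.r_pos a]) 0
  choose B hB using h
  refine ⟨1 + ∑ a, |B a|, by positivity, fun γ a z hz => ?_⟩
  obtain ⟨h1, h2⟩ := bq_spec C hz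
  set b := bq C a z with hb
  rw [hF.compat γ a b z h1]
  have h3 := hB b (γ * C.κ a b z) (C.T a b z) (ball_subset_closedBall h2)
  rw [norm_iteratedFDeriv_zero, Real.norm_eq_abs] at h3
  have h4 : |B b| ≤ ∑ a, |B a| :=
    Finset.single_le_sum (f := fun a => |B a|) (fun i _ => abs_nonneg _) (Finset.mem_univ b)
  linarith [le_abs_self (B b)]

theorem jet_congr {f g : Cm n → ℝ} {z : Cm n} (h : f =ᶠ[𝓝 z] g) : jet f z = jet g z := by
  unfold jet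
  rw [h.eq_of_nhds, h.fderiv_eq, h.fderiv.fderiv_eq]

theorem fn_sub (u v : C2A C α) (γ : Γ) (a : C.I) {z : Cm n} (hz : z ∈ C.V a) :
    fn (u - v) γ a z = fn u γ a z - fn v γ a z := by
  rw [fn, fn, fn, fam_of_mem _ _ _ hz, fam_of_mem _ _ _ hz, fam_of_mem _ _ _ hz]
  rfl

/-- smooth solutions which are near each other are near in `C^{2,α}` -/
theorem close_C2A {u u' : C2A C α} {φ φ' : Γ → C.I → Cm n → ℝ} {δ e M β : ℝ} (hδ : 0 ≤ δ)
    (hint : ∀ a, ∀ f : Cm n → ℝ,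
      (∀ z ∈ closedBall (C.c a) (7 / 2 * C.r a), ContDiffAt ℝ 2 f z) →
      (∀ z ∈ closedBall (C.c a) (7 / 2 * C.r a), |f z| ≤ e) →
      (∀ z ∈ closedBall (C.c a) (7 / 2 * C.r a), ∀ z' ∈ closedBall (C.c a) (7 / 2 * C.r a),
        ‖fderiv ℝ (fderiv ℝ f) z - fderiv ℝ (fderiv ℝ f) z'‖ ≤ (2 * M) * ‖z - z'‖ ^ β) →
      (∀ z ∈ ball (C.c a) (3 * C.r a), ‖jet f z‖ ≤ δ) ∧
      ∀ z ∈ ball (C.c a) (3 * C.r a), ∀ z' ∈ ball (C.c a) (3 * C.r a),
        ‖jet f z - jet f z'‖ ≤ δ * ‖z - z'‖ ^ α)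
    (h1 : SmF C φ) (h1' : SmF C φ')
    (h3 : ∀ p : Pt C, ∀ᶠ z in 𝓝 p.z, φ p.γ p.a z = fn u p.γ p.a z)
    (h3' : ∀ p : Pt C, ∀ᶠ z in 𝓝 p.z, φ' p.γ p.a z = fn u' p.γ p.a z)
    (g1 : ∀ γ a, ∀ y ∈ closedBall (C.c a) (7 / 2 * C.r a),
      ∀ y' ∈ closedBall (C.c a) (7 / 2 * C.r a),
      ‖fderiv ℝ (fderiv ℝ (φ γ a)) y - fderiv ℝ (fderiv ℝ (φ γ a)) y'‖ ≤ M * ‖y - y'‖ ^ β)
    (g2 : ∀ γ a, ∀ y ∈ closedBall (C.c a) (7 / 2 * C.r a),
      ∀ y' ∈ closedBall (C.c a) (7 / 2 * C.r a),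
      ‖fderiv ℝ (fderiv ℝ (φ' γ a)) y - fderiv ℝ (fderiv ℝ (φ' γ a)) y'‖ ≤ M * ‖y - y'‖ ^ β)
    (hcmp : ∀ γ a, ∀ z ∈ C.Ω a, |φ γ a z - φ' γ a z| ≤ e) : ‖u - u'‖ ≤ 3 * δ := by
  have key : ∀ γ a, (∀ z ∈ C.V a, ‖jet (fn (u - u') γ a) z‖ ≤ δ) ∧
      ∀ z ∈ C.V a, ∀ z' ∈ C.V a,
      ‖jet (fn (u - u') γ a) z - jet (fn (u - u') γ a) z'‖ ≤ δ * ‖z - z'‖ ^ α := by
    intro γ a
    have hr := C.r_pos a
    have hsub : closedBall (C.c a) (7 / 2 * C.r a) ⊆ C.Ω a :=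
      closedBall_subset_ball (by linarith)
    have hc2 : ∀ z ∈ C.Ω a, ContDiffAt ℝ 2 (φ γ a) z := fun z hz =>
      (h1.smooth γ a z hz).of_le (by norm_cast)
    have hc2' : ∀ z ∈ C.Ω a, ContDiffAt ℝ 2 (φ' γ a) z := fun z hz =>
      (h1'.smooth γ a z hz).of_le (by norm_cast)
    have hd2 : ∀ z ∈ C.Ω a, fderiv ℝ (fderiv ℝ fun y => φ γ a y - φ' γ a y) z =
        fderiv ℝ (fderiv ℝ (φ γ a)) z - fderiv ℝ (fderiv ℝ (φ' γ a)) z := by
      intro z hz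
      have e1 : (fderiv ℝ fun y => φ γ a y - φ' γ a y) =ᶠ[𝓝 z]
          fun y => fderiv ℝ (φ γ a) y - fderiv ℝ (φ' γ a) y := by
        filter_upwards [diffble1 (hc2 z hz), diffble1 (hc2' z hz)] with y hy hy'
        exact fderiv_fun_sub hy hy'
      rw [e1.fderiv_eq, fderiv_fun_sub (diffble2 (hc2 z hz)) (diffble2 (hc2' z hz))]
    have h9 := hint a (fun y => φ γ a y - φ' γ a y)
      (fun z hz => (hc2 z (hsub hz)).sub (hc2' z (hsub hz)))
      (fun z hz => hcmp γ a z (hsub hz))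
      (fun z hz z' hz' => by
        rw [hd2 z (hsub hz), hd2 z' (hsub hz'), sub_sub_sub_comm]
        have f1 := g1 γ a z hz z' hz'
        have f2 := g2 γ a z hz z' hz'
        refine (norm_sub_le _ _).trans ?_
        linarith)
    have hjet : ∀ z ∈ C.V a, jet (fn (u - u') γ a) z =
        jet (fun y => φ γ a y - φ' γ a y) z := by
      intro z hz
      refine jet_congr ?_
      filter_upwards [h3 ⟨γ, a, z, hz⟩, h3' ⟨γ, a, z, hz⟩, (V_open C a).mem_nhds hz]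
        with y hy hy' hyV
      rw [fn_sub u u' γ a hyV]
      have hy2 : φ γ a y = fn u γ a y := hy
      have hy2' : φ' γ a y = fn u' γ a y := hy'
      rw [hy2, hy2']
    refine ⟨fun z hz => ?_, fun z hz z' hz' => ?_⟩
    · rw [hjet z hz]
      exact h9.1 z hz
    · rw [hjet z hz, hjet z' hz']
      exact h9.2 z hz z' hz'
  exact norm_C2A_le (u - u') hδ (fun p => (key p.γ p.a).1 p.z p.mem) (fun γ a => (key γ a).2)

theorem lev_zero' (p : Pt C) : lev (J2 C α 0 p) = 0 := by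
  have h : J2 C α 0 p = 0 := by
    rw [map_zero]
    rfl
  rw [h]
  ext i j
  simp [lev_apply]

theorem zero_mem_posS (K : KM C) : (0 : C2A C α) ∈ PosS K α := by
  refine ⟨1, one_pos, fun p => ?_⟩
  rw [lev_zero' p, Complex.ofReal_one, one_smul, add_zero, sub_self]
  exact Matrix.PosSemidef.zero

theorem zero_eqn (K : KM C) (F : Γ → C.I → Cm n → ℝ) : Eqn K α F 0 (0 : C2A C α) := by
  intro p
  rw [lev_zero' p, add_zero, sub_self, zero_mul, add_zero, fn, fam_of_mem _ _ _ p.mem]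
  rfl

/-- uniform positivity of the solutions -/
theorem sol_posC {K : KM C} {u : C2A C α} {φ : Γ → C.I → Cm n → ℝ} {B : ℝ} (hB0 : 0 < B)
    (h3 : ∀ p : Pt C, ∀ᶠ z in 𝓝 p.z, φ p.γ p.a z = fn u p.γ p.a z)
    (hB : ∀ γ a, ∀ z ∈ C.Ω a, ((B : ℂ) • (K.w a z + cHess (φ γ a) z) - K.w a z).PosSemidef) :
    u ∈ posC K α B⁻¹ := by
  intro p
  have h5 := hB p.γ p.a p.z (C.V_sub p.a p.mem)
  have h6 : cHess (φ p.γ p.a) p.z = lev (J2 C α u p) := by
    rw [← cHess_fn]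
    exact C2.cHess_congr (h3 p)
  rw [h6] at h5
  have h7 : (0 : ℂ) ≤ ((B⁻¹ : ℝ) : ℂ) := by
    rw [Complex.zero_le_real]
    positivity
  have h8 := h5.smul h7
  convert h8 using 1
  rw [smul_sub, smul_smul, ← Complex.ofReal_mul, inv_mul_cancel₀ hB0.ne',
    Complex.ofReal_one, one_smul]

theorem exists_eps (C : Coc n Γ) (hI : IStmt) {α β : ℝ} (hα0 : 0 < α) (hαβ : α < β) (hβ : β < 1)
    (M : ℝ) {δ : ℝ} (hδ : 0 < δ) : ∃ e : ℝ, 0 < e ∧ ∀ a : C.I, ∀ f : Cm n → ℝ,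
      (∀ z ∈ closedBall (C.c a) (7 / 2 * C.r a), ContDiffAt ℝ 2 f z) →
      (∀ z ∈ closedBall (C.c a) (7 / 2 * C.r a), |f z| ≤ e) →
      (∀ z ∈ closedBall (C.c a) (7 / 2 * C.r a), ∀ z' ∈ closedBall (C.c a) (7 / 2 * C.r a),
        ‖fderiv ℝ (fderiv ℝ f) z - fderiv ℝ (fderiv ℝ f) z'‖ ≤ (2 * M) * ‖z - z'‖ ^ β) →
      (∀ z ∈ ball (C.c a) (3 * C.r a), ‖jet f z‖ ≤ δ) ∧
      ∀ z ∈ ball (C.c a) (3 * C.r a), ∀ z' ∈ ball (C.c a) (3 * C.r a),
        ‖jet f z - jet f z'‖ ≤ δ * ‖z - z'‖ ^ α := by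
  have hIa := fun a : C.I => hI n (C.c a) (3 * C.r a) (7 / 2 * C.r a) α β (2 * M)
    (by have := C.r_pos a; positivity) (by have := C.r_pos a; linarith) hα0 hαβ hβ δ hδ
  choose e he hint using hIa
  obtain ⟨a₀, -, ha₀⟩ := Finset.exists_min_image (Finset.univ : Finset C.I) e
    Finset.univ_nonempty
  exact ⟨e a₀, he a₀, fun a f h1 h2 h3 =>
    hint a f h1 (fun z hz => (h2 z hz).trans (ha₀ a (Finset.mem_univ a))) h3⟩

/-- **Row N2** -/
theorem n2 (hS : SStmt) (hLin : LinStmt) (hM0 : M0Concl) (hM2 : M2Concl) (hE : EConcl)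
    (hI : IStmt) (hN1 : N1Stmt) (hR : RStmt) : CYEx := by
  intro n Γ _ C K F hF
  have hα0 : (0 : ℝ) < 1 / 3 := by norm_num
  have hα1 : (1 / 3 : ℝ) < 1 := by norm_num
  obtain ⟨cs1, cs2⟩ := hS n Γ C (1 / 3) hα0
  obtain ⟨G, G', hstrict, hzero, hell⟩ := hN1 n Γ C K F hF (1 / 3) hα0 hα1
  obtain ⟨A, hA, hFA⟩ := fb_bound hF
  obtain ⟨B, hB1, hB⟩ := hM2 n Γ C K F hF A
  obtain ⟨M, hM⟩ := hE n Γ C K F hF (2 / 3) (by norm_num) (by norm_num)
  have hB0 : 0 < B := by linarith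
  have hsol : ∀ s : ℝ, ∀ u ∈ PosS K (1 / 3), G (s, u) = 0 →
      ∃ φ, MAF C K (fun γ a z => s * F γ a z) φ ∧ Bd C K φ ∧
      ∀ p : Pt C, ∀ᶠ z in 𝓝 p.z, φ p.γ p.a z = fn u p.γ p.a z := fun s u hu h =>
    hR n Γ C K F hF.toSmF (1 / 3) hα0 hα1 s u hu ((hzero s u hu).1 h)
  have hbd : ∀ s ∈ Icc (0 : ℝ) 1, ∀ γ a, ∀ z ∈ C.Ω a, |s * F γ a z| ≤ A := by
    intro s hs γ a z hz
    rw [abs_mul, abs_of_nonneg hs.1]
    calc s * |F γ a z| ≤ 1 * |F γ a z| := mul_le_mul_of_nonneg_right hs.2 (abs_nonneg _)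
      _ ≤ A := by rw [one_mul]; exact hFA γ a z hz
  have hsurj : ∀ s u, s ∈ Icc (0 : ℝ) 1 → u ∈ PosS K (1 / 3) → G (s, u) = 0 →
      ∀ f, ∃ v, G' (s, u) (0, v) = f := by
    intro s u _ hu hG f
    obtain ⟨L, a, hL, h⟩ := hell s u hu hG
    obtain ⟨g, hg⟩ := h f
    obtain ⟨v, hv⟩ := hLin n Γ C K (1 / 3) hα0 hα1 L a hL g
    exact ⟨v, hg v hv⟩
  have hK : ∀ s u, s ∈ Icc (0 : ℝ) 1 → u ∈ PosS K (1 / 3) → G (s, u) = 0 →
      u ∈ posC K (1 / 3) B⁻¹ := by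
    intro s u hs hu hG
    obtain ⟨φ, h1, h2, h3⟩ := hsol s u hu hG
    exact sol_posC hB0 h3 fun γ a z hz =>
      (hB s hs φ h1 h2 (hM0.bound n Γ C K _ φ h1 h2 A (hbd s hs)) γ a z hz).2
  have hcauchy : ∀ ε > 0, ∃ δ > 0, ∀ s s' u u', s ∈ Icc (0 : ℝ) 1 → s' ∈ Icc (0 : ℝ) 1 →
      |s - s'| < δ → u ∈ PosS K (1 / 3) → u' ∈ PosS K (1 / 3) → G (s, u) = 0 →
      G (s', u') = 0 → ‖u - u'‖ < ε := by
    intro ε hε
    obtain ⟨e, he, hint⟩ := exists_eps C hI hα0 (by norm_num : (1 / 3 : ℝ) < 2 / 3)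
      (by norm_num) M (δ := ε / 4) (by positivity)
    refine ⟨e / A, div_pos he hA, fun s s' u u' hs hs' hss hu hu' hG hG' => ?_⟩
    obtain ⟨φ, h1, h2, h3⟩ := hsol s u hu hG
    obtain ⟨φ', h1', h2', h3'⟩ := hsol s' u' hu' hG'
    have hcmp : ∀ γ a, ∀ z ∈ C.Ω a, |φ γ a z - φ' γ a z| ≤ e := by
      refine fun γ a z hz => (hM0.compare n Γ C K _ _ φ φ' h1 h2 h1' h2' (|s - s'| * A)
        (fun γ a z hz => ?_) γ a z hz).trans ?_
      · rw [← sub_mul, abs_mul]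
        exact mul_le_mul_of_nonneg_left (hFA γ a z hz) (abs_nonneg _)
      · rw [lt_div_iff₀ hA] at hss
        exact hss.le
    have h10 := close_C2A (u := u) (u' := u') (by positivity : 0 ≤ ε / 4) hint h1.toSmF
      h1'.toSmF h3 h3' (hM s hs φ h1 h2) (hM s' hs' φ' h1' h2') hcmp
    linarith
  obtain ⟨u, hu, hG⟩ := continuity_method G (PosS K (1 / 3)) (isOpen_posS K (1 / 3)) G'
    (fun s u _ _ => hstrict s u) hsurj (posC K (1 / 3) B⁻¹) (isClosed_posC K (1 / 3) B⁻¹)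
    (fun u hu => ⟨B⁻¹, by positivity, hu⟩) hK hcauchy
    ⟨0, zero_mem_posS K, (hzero 0 0 (zero_mem_posS K)).2 (zero_eqn K F)⟩
  obtain ⟨φ, h1, h2, -⟩ := hsol 1 u hu hG
  refine ⟨φ, ?_, h2⟩
  simpa only [one_mul] using h1

end

end Vale.Agent.P284.H409.CY
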