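import Vale.Agent.P284.H913.K3
import Vale.Agent.P284.H894.B1Glue

/-!
# P284, Cheng-Yau on coverings, row R (helper409): extension from the balls `V a` to the balls `Ω a`
-/

open scoped Manifold ContDiff Topology Pointwise ComplexConjugate ComplexOrder
open Filter Set Metric MeasureTheory

noncomputable section

namespace Vale.Agent.P284.H409.CY

open Vale.Agent.P272.K Vale.Agent.P272.K.C2 Vale.Agent.P284.H248 Vale.Agent.P284.H894
  Vale.Agent.P284.H894.V Vale.Agent.P284.H913.V Vale.Agent.P284.H409.K Vale.Agent.P284.H913.K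

section
variable {n : ℕ} {Γ : Type} [Group Γ] (C : Coc n Γ) {α : Type*}

/-- a small ball which contains the point -/
def bq (a : C.I) (z : Cm n) : C.I := by
  classical
  exact if h : z ∈ C.Ω a then (C.cover a z h).choose else a

theorem bq_spec {a : C.I} {z : Cm n} (h : z ∈ C.Ω a) :
    z ∈ C.O a (bq C a z) ∧ C.T a (bq C a z) z ∈ C.W (bq C a z) := by
  classical
  unfold bq
  rw [dif_pos h]
  exact (C.cover a z h).choose_spec

/-- extension of a family from the balls `V a` -/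
def ext (φ : Γ → C.I → Cm n → α) : Γ → C.I → Cm n → α := fun γ a z =>
  φ (γ * C.κ a (bq C a z) z) (bq C a z) (C.T a (bq C a z) z)

variable {C} {φ : Γ → C.I → Cm n → α}

theorem κ_cancel {a d : C.I} {z : Cm n} (hz : z ∈ C.O a d) :
    C.κ a d z * C.κ d a (C.T a d z) = 1 := by
  have h1 := C.T_mem a d z hz
  have h2 := C.trans_mem a d a z hz h1
  rw [← C.trans_κ a d a z hz h1, C.κ_self a z h2]

theorem ext_eq (hc : ∀ γ a b, ∀ z ∈ C.O a b, z ∈ C.V a → C.T a b z ∈ C.V b →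
      φ γ a z = φ (γ * C.κ a b z) b (C.T a b z))
    (γ : Γ) {a b : C.I} {z : Cm n} (hz : z ∈ C.O a b) (hb : C.T a b z ∈ C.V b) :
    ext C φ γ a z = φ (γ * C.κ a b z) b (C.T a b z) := by
  have hΩ := C.O_Ω hz
  obtain ⟨h1, h2⟩ := bq_spec C hΩ
  set d := bq C a z with hd
  have h3 : C.T a d z ∈ C.O d b := C.O_trans h1 hz
  have h4 : C.T d a (C.T a d z) = z := C.T_inv h1
  have h5 : C.T d b (C.T a d z) = C.T a b z := by
    rw [C.trans_T d a b _ (C.T_mem a d z h1) (by rw [h4]; exact hz), h4]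
  have h6 : C.κ d b (C.T a d z) = C.κ d a (C.T a d z) * C.κ a b z := by
    rw [C.trans_κ d a b _ (C.T_mem a d z h1) (by rw [h4]; exact hz), h4]
  have h7 := hc (γ * C.κ a d z) d b (C.T a d z) h3 (C.W_sub d h2) (by rw [h5]; exact hb)
  show φ (γ * C.κ a d z) d (C.T a d z) = _
  rw [h7, h5, h6]
  congr 1
  rw [mul_assoc, ← mul_assoc (C.κ a d z), κ_cancel h1, one_mul]

theorem ext_self (hc : ∀ γ a b, ∀ z ∈ C.O a b, z ∈ C.V a → C.T a b z ∈ C.V b →
      φ γ a z = φ (γ * C.κ a b z) b (C.T a b z))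
    (γ : Γ) {a : C.I} {z : Cm n} (hz : z ∈ C.V a) : ext C φ γ a z = φ γ a z := by
  have hO : z ∈ C.O a a := by rw [C.O_self]; exact C.V_sub a hz
  rw [ext_eq hc γ hO (by rw [C.T_self a z hO]; exact hz), C.κ_self a z hO, C.T_self a z hO, mul_one]

theorem ext_nhds (hc : ∀ γ a b, ∀ z ∈ C.O a b, z ∈ C.V a → C.T a b z ∈ C.V b →
      φ γ a z = φ (γ * C.κ a b z) b (C.T a b z))
    (γ : Γ) {a b : C.I} {z : Cm n} (hz : z ∈ C.O a b) (hb : C.T a b z ∈ C.V b) :
    ext C φ γ a =ᶠ[𝓝 z] fun y => φ (γ * C.κ a b z) b (C.T a b y) := by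
  have hT : ContinuousAt (C.T a b) z := (T_diff C hz).continuousAt
  filter_upwards [(C.O_open a b).mem_nhds hz, C.κ_loc a b z hz,
    hT.eventually ((C.isOpen_V b).mem_nhds hb)] with y h1 h2 h3
  rw [ext_eq hc γ h1 h3, h2]

theorem ext_compat (hc : ∀ γ a b, ∀ z ∈ C.O a b, z ∈ C.V a → C.T a b z ∈ C.V b →
      φ γ a z = φ (γ * C.κ a b z) b (C.T a b z))
    (γ : Γ) {a b : C.I} {z : Cm n} (hz : z ∈ C.O a b) :
    ext C φ γ a z = ext C φ (γ * C.κ a b z) b (C.T a b z) := by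
  obtain ⟨h1, h2⟩ := bq_spec C (C.O_Ω hz)
  set d := bq C a z with hd
  have h3 : C.T a b z ∈ C.O b d := C.O_trans hz h1
  have h5 : C.T b d (C.T a b z) = C.T a d z := (C.trans_T a b d z hz h3).symm
  rw [ext_eq hc γ h1 (C.W_sub d h2),
    ext_eq hc (γ * C.κ a b z) h3 (by rw [h5]; exact C.W_sub d h2), h5,
    C.trans_κ a b d z hz h3, mul_assoc]

end

section
variable {n : ℕ} {Γ : Type} [Group Γ] {C : Coc n Γ} {φ : Γ → C.I → Cm n → ℝ}

/-- a family which is smooth and compatible on the balls `V a` extends to a smooth function on the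
covering -/
theorem ext_smF (hs : ∀ γ a, ∀ z ∈ C.V a, ContDiffAt ℝ ∞ (φ γ a) z)
    (hc : ∀ γ a b, ∀ z ∈ C.O a b, z ∈ C.V a → C.T a b z ∈ C.V b →
      φ γ a z = φ (γ * C.κ a b z) b (C.T a b z)) : SmF C (ext C φ) := by
  refine ⟨fun γ a z hz => ?_, fun γ a b z hz => ext_compat hc γ hz⟩
  obtain ⟨h1, h2⟩ := bq_spec C hz
  refine ContDiffAt.congr_of_eventuallyEq ?_ (ext_nhds hc γ h1 (C.W_sub _ h2))
  exact (hs _ _ _ (C.W_sub _ h2)).comp z (C.T_smooth h1)

theorem jac_det_ne {K : KM C} {a b : C.I} {z : Cm n} (hz : z ∈ C.O a b) :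
    (jac C a b z).det ≠ 0 := by
  intro h0
  have h3 := vol_pos K (C.O_Ω hz)
  rw [vol, K.change a b z hz, det_pull, h0] at h3
  simp at h3

theorem conjT_map (J : Matrix (Fin n) (Fin n) ℂ) :
    (J.map (starRingEnd ℂ)).conjTranspose = J.transpose := by
  ext i j
  simp [Matrix.conjTranspose_apply]

theorem pd_conj {A J : Matrix (Fin n) (Fin n) ℂ} (hA : A.PosDef) (hJ : J.det ≠ 0) :
    (J.transpose * A * J.map (starRingEnd ℂ)).PosDef := by
  have hJ' : IsUnit (J.map (starRingEnd ℂ)) := by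
    rw [Matrix.isUnit_iff_isUnit_det, isUnit_iff_ne_zero]
    have h4 : (J.map (starRingEnd ℂ)).det = (starRingEnd ℂ) J.det :=
      (RingHom.map_det (starRingEnd ℂ) _).symm
    rw [h4]
    exact (map_ne_zero (starRingEnd ℂ)).2 hJ
  rw [← conjT_map]
  exact hA.conjTranspose_mul_mul_same (Matrix.mulVec_injective_of_isUnit hJ')

theorem psd_conj {A : Matrix (Fin n) (Fin n) ℂ} (J : Matrix (Fin n) (Fin n) ℂ)
    (hA : A.PosSemidef) : (J.transpose * A * J.map (starRingEnd ℂ)).PosSemidef := by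
  rw [← conjT_map]
  exact hA.conjTranspose_mul_mul_same _

/-- transformation of the metric `w + ∂∂̄φ` -/
theorem wH_T (K : KM C) (hφ : SmF C φ) (γ : Γ) {a b : C.I} {z : Cm n} (hz : z ∈ C.O a b) :
    K.w a z + cHess (φ γ a) z = (jac C a b z).transpose * (K.w b (C.T a b z) +
      cHess (φ (γ * C.κ a b z) b) (C.T a b z)) * (jac C a b z).map (starRingEnd ℂ) := by
  rw [cHess_T hφ.smooth hφ.compat γ hz, K.change a b z hz, Matrix.mul_add, Matrix.add_mul]

/-- the equation on the small balls implies the equation everywhere -/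
theorem maf_of (K : KM C) {F : Γ → C.I → Cm n → ℝ} (hF : SmF C F) (hφ : SmF C φ)
    (hp : ∀ γ a, ∀ z ∈ C.W a, (K.w a z + cHess (φ γ a) z).PosDef)
    (he : ∀ γ a, ∀ z ∈ C.W a, Real.log (K.w a z + cHess (φ γ a) z).det.re -
      Real.log (K.w a z).det.re = φ γ a z + F γ a z) : MAF C K F φ := by
  have hpos : ∀ γ a, ∀ z ∈ C.Ω a, (K.w a z + cHess (φ γ a) z).PosDef := by
    intro γ a z hz
    obtain ⟨h1, h2⟩ := bq_spec C hz
    rw [wH_T K hφ γ h1]
    exact pd_conj (hp (γ * C.κ a (bq C a z) z) _ _ h2) (jac_det_ne (K := K) h1)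
  refine ⟨hφ, hpos, fun γ a z hz => ?_⟩
  obtain ⟨h1, h2⟩ := bq_spec C hz
  have h3 := Dn_compat K hφ.smooth hφ.compat γ a (bq C a z) z h1
  have hd : ∀ γ a, ∀ z ∈ C.Ω a, Real.log (Dn K φ γ a z) =
      Real.log (K.w a z + cHess (φ γ a) z).det.re - Real.log (K.w a z).det.re := by
    intro γ a z hz
    rw [Dn, Real.log_div (Complex.pos_iff.1 (hpos γ a z hz).det_pos).1.ne' (vol_pos K hz).ne', vol]
  rw [← hd γ a z hz, h3, hd _ _ _ (C.T_Ω h1), he _ _ _ h2, hφ.compat γ a _ z h1,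
    hF.compat γ a _ z h1]

end

end Vale.Agent.P284.H409.CY
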