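import Vale.Agent.P284.H730.CY.Spec
import Vale.Agent.P284.H409.CY.Ext
import Vale.Agent.P272.K.R.Final

/-!
# P284, Cheng-Yau on coverings, row R (helper409): regularity of the solutions in `C^{2,α}`
-/

open scoped Manifold ContDiff Topology NNReal ComplexOrder ComplexConjugate
open Filter Set Metric MeasureTheory Matrix

set_option maxSynthPendingDepth 3

noncomputable section

namespace Vale.Agent.P284.H409.CY

open Vale.Agent.P272.K Vale.Agent.P272.K.LIN Vale.Agent.P272.K.N Vale.Agent.P284.H248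
  Vale.Agent.P284.H894 Vale.Agent.P284.H894.G Vale.Agent.P284.H894.V Vale.Agent.P284.H409.K
  Vale.Agent.P284.H730.CY

section
variable {n : ℕ}

theorem psd_of_re {M : Matrix (Fin n) (Fin n) ℂ} (hM : M.IsHermitian)
    (h : ∀ x : Fin n → ℂ, 0 ≤ (star x ⬝ᵥ M.mulVec x).re) : M.PosSemidef := by
  refine Matrix.PosSemidef.of_dotProduct_mulVec_nonneg hM fun x => ?_
  have him := hM.im_star_dotProduct_mulVec_self x
  rw [Complex.nonneg_iff]
  exact ⟨h x, by simpa using him.symm⟩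

/-- the quadratic form of the Levi matrix -/
theorem lev_le {B : Bil n} (hB : ∀ v w, B v w = B w v) (x : Fin n → ℂ) :
    |(star x ⬝ᵥ (lev B).mulVec x).re| ≤ ‖B‖ / 2 * ∑ j, ‖x j‖ ^ 2 := by
  rw [lev_quadratic hB, Complex.ofReal_re]
  have h0 : ‖(star x : Cm n)‖ ^ 2 ≤ ∑ j, ‖x j‖ ^ 2 := by
    by_cases hn : Nonempty (Fin n)
    · have h1 : ‖(star x : Cm n)‖ ≤ Real.sqrt (∑ j, ‖x j‖ ^ 2) := by
        refine (pi_norm_le_iff_of_nonneg (Real.sqrt_nonneg _)).2 fun j => ?_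
        refine Real.le_sqrt_of_sq_le ?_
        have h2 : ‖(star x : Cm n) j‖ = ‖x j‖ := by simp
        rw [h2]
        exact Finset.single_le_sum (f := fun j => ‖x j‖ ^ 2) (fun i _ => sq_nonneg _)
          (Finset.mem_univ j)
      calc ‖(star x : Cm n)‖ ^ 2 ≤ (Real.sqrt (∑ j, ‖x j‖ ^ 2)) ^ 2 :=
            pow_le_pow_left₀ (norm_nonneg _) h1 2
        _ = _ := Real.sq_sqrt (Finset.sum_nonneg fun i _ => sq_nonneg _)
    · have h1 : (star x : Cm n) = 0 := by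
        funext j
        exact (hn ⟨j⟩).elim
      rw [h1, norm_zero]
      simpa using Finset.sum_nonneg fun i _ => sq_nonneg ‖x i‖
  have h1 : |B (star x) (star x)| ≤ ‖B‖ * ‖(star x : Cm n)‖ ^ 2 := by
    have := B.le_opNorm₂ (star x) (star x)
    rw [Real.norm_eq_abs] at this
    linarith [sq ‖(star x : Cm n)‖, mul_assoc ‖B‖ ‖(star x : Cm n)‖ ‖(star x : Cm n)‖]
  have h2 : |B (Complex.I • star x) (Complex.I • star x)| ≤ ‖B‖ * ‖(star x : Cm n)‖ ^ 2 := by
    have := B.le_opNorm₂ (Complex.I • (star x : Cm n)) (Complex.I • (star x : Cm n))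
    rw [Real.norm_eq_abs, norm_smul, Complex.norm_I, one_mul] at this
    linarith [sq ‖(star x : Cm n)‖, mul_assoc ‖B‖ ‖(star x : Cm n)‖ ‖(star x : Cm n)‖]
  have h3 : |(B (star x) (star x) + B (Complex.I • star x) (Complex.I • star x)) / 4| ≤
      (‖B‖ * ‖(star x : Cm n)‖ ^ 2 + ‖B‖ * ‖(star x : Cm n)‖ ^ 2) / 4 := by
    rw [abs_div, abs_of_pos (by norm_num : (0 : ℝ) < 4)]
    refine div_le_div_of_nonneg_right ((abs_add_le _ _).trans (add_le_add h1 h2)) (by norm_num)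
  refine h3.trans ?_
  have h4 := mul_le_mul_of_nonneg_left h0 (norm_nonneg B)
  linarith

variable {Γ : Type} [Group Γ] {C : Coc n Γ}

theorem w_low (K : KM C) {a : C.I} {z : Cm n} (hz : z ∈ C.Ω a) (x : Fin n → ℂ) :
    K.lam * ∑ j, ‖x j‖ ^ 2 ≤ (star x ⬝ᵥ (K.w a z).mulVec x).re := by
  have h1 := K.low a z hz (star x)
  have h2 : (∑ j, ‖(star x : Cm n) j‖ ^ 2) = ∑ j, ‖x j‖ ^ 2 :=
    Finset.sum_congr rfl fun j _ => by simp
  have h3 : (∑ j, ∑ k, K.w a z j k * (star x : Cm n) j * conj ((star x : Cm n) k)) =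
      star x ⬝ᵥ (K.w a z).mulVec x := by
    simp only [dotProduct, Matrix.mulVec, Finset.mul_sum]
    refine Finset.sum_congr rfl fun j _ => Finset.sum_congr rfl fun k _ => ?_
    simp only [Pi.star_apply, RCLike.star_def, Complex.conj_conj]
    ring
  rw [h2, h3] at h1
  exact h1

/-- `c w ± lev B ≥ 0` if `‖B‖ ≤ 2 c lam` -/
theorem w_lev_psd (K : KM C) {a : C.I} {z : Cm n} (hz : z ∈ C.Ω a) {B : Bil n}
    (hB : ∀ v w, B v w = B w v) {c : ℝ} (hc : ‖B‖ ≤ 2 * c * K.lam) :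
    ((c : ℂ) • K.w a z - lev B).PosSemidef ∧ ((c : ℂ) • K.w a z + lev B).PosSemidef := by
  have hc0 : 0 ≤ c := by
    have h1 := (norm_nonneg B).trans hc
    have h2 := K.lam_pos
    by_contra h3
    push Not at h3
    nlinarith
  have hw : ((c : ℂ) • K.w a z).IsHermitian := by
    have h1 := ((K.ku a).pos z hz).isHermitian
    rw [Matrix.IsHermitian, Matrix.conjTranspose_smul, h1.eq]
    simp
  have key : ∀ x : Fin n → ℂ, |(star x ⬝ᵥ (lev B).mulVec x).re| ≤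
      (star x ⬝ᵥ ((c : ℂ) • K.w a z).mulVec x).re := by
    intro x
    rw [Matrix.smul_mulVec, dotProduct_smul, smul_eq_mul, Complex.re_ofReal_mul]
    have h1 := mul_le_mul_of_nonneg_left (w_low K hz x) hc0
    refine (lev_le hB x).trans (le_trans ?_ h1)
    have h2 : (0 : ℝ) ≤ ∑ j, ‖x j‖ ^ 2 := Finset.sum_nonneg fun i _ => sq_nonneg _
    have h3 := mul_le_mul_of_nonneg_right hc h2
    linarith
  refine ⟨psd_of_re (hw.sub (lev_isHermitian hB)) fun x => ?_,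
    psd_of_re (hw.add (lev_isHermitian hB)) fun x => ?_⟩
  · rw [Matrix.sub_mulVec, dotProduct_sub, Complex.sub_re]
    linarith [key x, le_abs_self (star x ⬝ᵥ (lev B).mulVec x).re]
  · rw [Matrix.add_mulVec, dotProduct_add, Complex.add_re]
    linarith [key x, neg_abs_le (star x ⬝ᵥ (lev B).mulVec x).re]

theorem sym_of_c2 {f : Cm n → ℝ} {z : Cm n} (hf : ContDiffAt ℝ 2 f z) (v w : Cm n) :
    fderiv ℝ (fderiv ℝ f) z v w = fderiv ℝ (fderiv ℝ f) z w v :=
  (hf.isSymmSndFDerivAt (by simp)).eq v w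

end

section
variable {n : ℕ} {Γ : Type} [Group Γ] {C : Coc n Γ} {α : ℝ}

theorem J2_symm (u : C2A C α) (p : Pt C) (v w : Cm n) : J2 C α u p v w = J2 C α u p w v := by
  rw [J2_apply]
  exact sym_of_c2 (fn_contDiffAt u p) v w

theorem J2_bound (C : Coc n Γ) (α : ℝ) : ∃ B : ℝ, 0 ≤ B ∧ ∀ (u : C2A C α) (p : Pt C),
    ‖J2 C α u p‖ ≤ B * ‖u‖ :=
  ⟨‖J2 C α‖, norm_nonneg _, fun u p => ((J2 C α u).norm_apply_le p).trans
    ((J2 C α).le_opNorm u)⟩

theorem fn_bound (u : C2A C α) (p : Pt C) : |fn u p.γ p.a p.z| ≤ ‖inc C α u‖ := by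
  rw [← inc_apply u p, ← Real.norm_eq_abs]
  exact ((inc C α u : Hol (wt C α) ℝ)).norm_apply_le p

theorem fn_compat (u : C2A C α) : ∀ γ a b, ∀ z ∈ C.O a b, z ∈ C.V a → C.T a b z ∈ C.V b →
    fn u γ a z = fn u (γ * C.κ a b z) b (C.T a b z) := by
  intro γ a b z hz h1 h2
  have h := u.2.1 ⟨γ, a, z, h1⟩ ⟨γ * C.κ a b z, b, C.T a b z, h2⟩ ⟨hz, rfl, rfl⟩
  rw [fn, fam_of_mem _ _ _ h1, fam_of_mem _ _ _ h2]
  exact h

theorem cHess_fn (u : C2A C α) (p : Pt C) : cHess (fn u p.γ p.a) p.z = lev (J2 C α u p) := by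
  rw [cHess_eq_lev (diffble2 (fn_contDiffAt u p)), J2_apply]

theorem pd_of_posS {K : KM C} {u : C2A C α} (hu : u ∈ PosS K α) (p : Pt C) :
    (K.w p.a p.z + lev (J2 C α u p)).PosDef := by
  obtain ⟨c, hc, h⟩ := hu
  have h1 : ((c : ℂ) • K.w p.a p.z).PosDef := by
    have h2 := (K.ku p.a).pos p.z (C.V_sub p.a p.mem)
    refine Matrix.PosDef.smul h2 ?_
    exact_mod_cast hc
  have h3 := h1.add_posSemidef (h p)
  rwa [add_sub_cancel] at h3

/-- solutions in `C^{2,α}` are smooth on the balls `V a` -/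
theorem fn_smooth {K : KM C} {F : Γ → C.I → Cm n → ℝ} (hF : SmF C F) (h0 : 0 < α) (h1 : α < 1)
    {s : ℝ} {u : C2A C α} (hu : u ∈ PosS K α) (he : Eqn K α F s u) :
    ∀ γ a, ∀ z ∈ C.V a, ContDiffAt ℝ ∞ (fn u γ a) z := by
  intro γ a z hz
  have key := contDiffAt_of_equation (n := n) (R.reg (Cm n) h0 h1) (U := C.V a) isOpen_ball
    (χ := K.w a) (f := fun y => s * F γ a y) (w := fn u γ a)
    (fun y hy i j => (K.ku a).smooth y (C.V_sub a hy) i j)
    (fun y hy => (K.ku a).pos y (C.V_sub a hy))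
    (fun y hy => contDiffAt_const.mul (hF.smooth γ a y (C.V_sub a hy)))
    (fun y hy => fn_contDiffAt u ⟨γ, a, y, hy⟩)
    (fun y hy => ?_)
    (fun y hy => by
      have h := pd_of_posS hu ⟨γ, a, y, hy⟩
      rw [← cHess_fn] at h
      exact h)
    (fun y hy => by
      have h := he ⟨γ, a, y, hy⟩
      rw [← cHess_fn] at h
      exact h) z hz
  · exact key
  · obtain ⟨r, hr, hsub⟩ := Metric.isOpen_iff.1 (isOpen_ball (x := C.c a) (ε := 3 * C.r a)) y hy
    refine ⟨r, hr, (J2 C α u).N1, fun y1 hy1 y2 hy2 => ?_⟩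
    have h2 := (J2 C α u).le_N1 ⟨γ, a, y1, hsub hy1⟩ ⟨γ, a, y2, hsub hy2⟩
    rw [J2_apply, J2_apply] at h2
    have h3 : ((wt C α ⟨γ, a, y1, hsub hy1⟩ ⟨γ, a, y2, hsub hy2⟩ : ℝ≥0) : ℝ) =
        ‖y1 - y2‖ ^ α := by
      unfold wt
      rw [if_pos ⟨rfl, rfl⟩]
      simp
    rw [h3] at h2
    exact h2

/-- **Row R** -/
theorem rStmt : RStmt := by
  intro n Γ _ C K F hF α h0 h1 s u hu he
  have hs := fn_smooth hF h0 h1 hu he
  have hc := fn_compat u
  set φ := ext C (fn u) with hφ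
  have hφs : SmF C φ := ext_smF hs hc
  have hev : ∀ p : Pt C, ∀ᶠ z in 𝓝 p.z, φ p.γ p.a z = fn u p.γ p.a z := by
    intro p
    filter_upwards [(V_open C p.a).mem_nhds p.mem] with z hz
    exact ext_self hc p.γ hz
  have hH : ∀ p : Pt C, cHess (φ p.γ p.a) p.z = lev (J2 C α u p) := by
    intro p
    rw [← cHess_fn]
    exact C2.cHess_congr (hev p)
  refine ⟨φ, ?_, ?_, hev⟩
  · refine maf_of K (F := fun γ a z => s * F γ a z) ⟨fun γ a z hz => ?_, fun γ a b z hz => ?_⟩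
      hφs (fun γ a z hz => ?_) (fun γ a z hz => ?_)
    · exact contDiffAt_const.mul (hF.smooth γ a z hz)
    · rw [hF.compat γ a b z hz]
    · have h := pd_of_posS hu ⟨γ, a, z, C.W_sub a hz⟩
      rw [← hH] at h
      exact h
    · have h := he ⟨γ, a, z, C.W_sub a hz⟩
      rw [← hH] at h
      have h2 : φ γ a z = fn u γ a z := ext_self hc γ (C.W_sub a hz)
      rw [h2]
      exact h
  · have hw : ∀ (c : ℝ) (a b : C.I) (z : Cm n), z ∈ C.O a b → (c : ℂ) • K.w a z =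
        (jac C a b z).transpose * ((c : ℂ) • K.w b (C.T a b z)) *
          (jac C a b z).map (starRingEnd ℂ) := by
      intro c a b z hz
      rw [K.change a b z hz, Matrix.mul_smul, Matrix.smul_mul]
    refine ⟨⟨‖inc C α u‖, fun γ a z hz => ?_⟩, ?_, ?_⟩
    · obtain ⟨h2, h3⟩ := bq_spec C hz
      exact fn_bound u ⟨γ * C.κ a (bq C a z) z, bq C a z, C.T a (bq C a z) z, C.W_sub _ h3⟩
    · obtain ⟨B, hB0, hB⟩ := J2_bound C α
      set c : ℝ := B * ‖u‖ / (2 * K.lam) with hcdef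
      refine ⟨1 + c, fun γ a z hz => ?_⟩
      obtain ⟨h2, h3⟩ := bq_spec C hz
      set b := bq C a z with hb
      rw [wH_T K hφs γ h2, hw (1 + c) a b z h2, ← Matrix.sub_mul, ← Matrix.mul_sub]
      refine psd_conj _ ?_
      have hb3 := C.W_sub b h3
      have h4 := hH ⟨γ * C.κ a b z, b, C.T a b z, hb3⟩
      rw [show cHess (φ (γ * C.κ a b z) b) (C.T a b z) = _ from h4]
      have h5 := (w_lev_psd K (C.V_sub b hb3) (J2_symm u ⟨γ * C.κ a b z, b, C.T a b z, hb3⟩)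
        (c := c) (by
          refine (hB u _).trans (le_of_eq ?_)
          rw [hcdef]
          have := K.lam_pos
          field_simp)).1
      convert h5 using 1
      push_cast
      rw [add_smul, one_smul]
      abel
    · obtain ⟨c, hc0, hcp⟩ := hu
      refine ⟨c, hc0, fun γ a z hz => ?_⟩
      obtain ⟨h2, h3⟩ := bq_spec C hz
      set b := bq C a z with hb
      rw [wH_T K hφs γ h2, hw c a b z h2, ← Matrix.sub_mul, ← Matrix.mul_sub]
      refine psd_conj _ ?_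
      have hb3 := C.W_sub b h3
      have h4 := hH ⟨γ * C.κ a b z, b, C.T a b z, hb3⟩
      rw [show cHess (φ (γ * C.κ a b z) b) (C.T a b z) = _ from h4]
      exact hcp ⟨γ * C.κ a b z, b, C.T a b z, hb3⟩

end

end Vale.Agent.P284.H409.CY
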